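import Vale.Agent.P348.Defs
import Vale.Agent.N348.Defs
import Vale.Agent.N348.Lim

namespace Vale.Agent.Results.P348.A0StableLimit

open Vale.Agent.P348 Vale.Agent.N348

/-- The gap of the spin-one ring is stable under perturbations; the gaps converge. -/
theorem result :
    -- (1) stability in an explicit neighbourhood of the Heisenberg chain
    (∀ (J : ZMod 2 → Fin 3 → ℝ) (b : ZMod 2 → ℝ) (D h : Fin 3 → ℝ),
      Close (1 / 10 ^ 9) J b D h → ∃ e : ℝ, ∀ (L : ℕ) [NeZero L], Even L → 12 ≤ L →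
        ∃ E : ℝ, UniqueGap (chainH J b D h L) E (1 / 80) ∧
          0 ≤ e * L - E ∧ e * L - E ≤ Real.exp (-(L / 256))) ∧
    ∃ Δ : ℝ,
      -- (2) the gaps converge along the even lengths
      (Filter.Tendsto (fun m : ℕ => gap (2 * m + 4)) Filter.atTop (nhds Δ) ∧ Δ ≤ 2) ∧
      -- (3) lower semicontinuity of the limit under the perturbations
      ∀ γ : ℝ, γ < Δ → ∃ δ : ℝ, 0 < δ ∧ ∃ L₀ : ℕ,
        ∀ (J : ZMod 2 → Fin 3 → ℝ) (b : ZMod 2 → ℝ) (D h : Fin 3 → ℝ), Close δ J b D h →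
          ∀ (L : ℕ) [NeZero L], Even L → L₀ ≤ L → ∃ E : ℝ, UniqueGap (chainH J b D h L) E γ :=
  ⟨stable', limit_lsc.imp fun _ h => ⟨⟨h.1.1, h.1.2.2.2⟩, h.2⟩⟩

end Vale.Agent.Results.P348.A0StableLimit
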